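import Vale.Agent.P097.H323.D2.Defs
import Mathlib

/-! # P097 / Disc / D2 : [F2] from Thue's lemma -/

set_option linter.all false

open Polynomial

namespace Vale.Agent.P097.D2

/-- the root of unity `exp (π i / m)` -/
noncomputable def zt (m : ℕ) : ℂ := Complex.exp (2 * Real.pi * Complex.I / ((2 * m : ℕ) : ℂ))

theorem zt_prim {m : ℕ} (hm : 1 ≤ m) : IsPrimitiveRoot (zt m) (2 * m) :=
  Complex.isPrimitiveRoot_exp (2 * m) (by omega)

theorem cos_eq {m : ℕ} (hm : 1 ≤ m) (p : ℕ) :
    (Real.cos (Real.pi * p / m) : ℂ) = (zt m ^ p + (zt m ^ p)⁻¹) / 2 := by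
  have h0 : (m : ℂ) ≠ 0 := by exact_mod_cast (by omega : m ≠ 0)
  rw [Complex.ofReal_cos, Complex.cos, zt, ← Complex.exp_nat_mul, ← Complex.exp_neg]
  congr 3
  · push_cast
    field_simp
  · push_cast
    field_simp

theorem pow_modEq' {M : Type*} [Monoid M] {z : M} {N a b : ℕ} (hz : z ^ N = 1)
    (h : a ≡ b [MOD N]) : z ^ a = z ^ b := by
  have h' : a % N = b % N := h
  rw [← Nat.mod_add_div a N, ← Nat.mod_add_div b N, pow_add, pow_add, pow_mul, pow_mul, hz,
    one_pow, one_pow, h']

theorem f2_of_th (hTH : TH) : F2 := by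
  intro K m hm n d hnd w hw
  have hζ := zt_prim hm
  let E : IntermediateField K ℂ := IntermediateField.adjoin K {zt m}
  have : NeZero (2 * m) := ⟨by omega⟩
  have hint : IsIntegral K (zt m) := (hζ.isIntegral (by omega)).tower_top
  have hfin : FiniteDimensional K E := IntermediateField.adjoin.finiteDimensional hint
  have hcyc : IsCyclotomicExtension {2 * m} K E := by
    change IsCyclotomicExtension {2 * m} K (IntermediateField.adjoin K {zt m}).toSubalgebra
    rw [IntermediateField.adjoin_simple_toSubalgebra_of_isAlgebraic hint.isAlgebraic]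
    exact hζ.adjoin_isCyclotomicExtension K
  have hgal : IsGalois K E := IsCyclotomicExtension.isGalois {2 * m} K E
  let z : E := ⟨zt m, IntermediateField.mem_adjoin_simple_self K (zt m)⟩
  have hz : IsPrimitiveRoot z (2 * m) := by
    refine IsPrimitiveRoot.of_map_of_injective (f := (E.val : E →ₐ[K] ℂ)) ?_ E.val.injective
    exact hζ
  let c : ℕ → E := fun p => (z ^ p + (z ^ p)⁻¹) / 2
  have hc : ∀ p, ((c p : E) : ℂ) = (Real.cos (Real.pi * p / m) : ℂ) := by
    intro p
    rw [cos_eq hm]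
    simp only [c]
    push_cast
    rfl
  have hval : ∀ (P : K[X]) (p : ℕ), ((aeval (c p) P : E) : ℂ) =
      aeval (Real.cos (Real.pi * p / m) : ℂ) P := by
    intro P p
    rw [← hc p]
    exact (Polynomial.aeval_algHom_apply E.val (c p) P).symm
  have hd : ∀ p, 0 < p → p * p ≤ 2 * m → aeval (c p) d ≠ 0 := by
    intro p hp hp2 h0
    obtain ⟨a, b, hab⟩ := hnd
    have h1 : aeval (Real.cos (Real.pi * p / m) : ℂ) d = 0 := by
      rw [← hval, h0]; rfl
    have h2 := hw p hp hp2
    rw [h1, mul_zero] at h2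
    have h3 := congrArg (aeval (Real.cos (Real.pi * p / m) : ℂ)) hab
    rw [map_add, map_mul, map_mul, h1, h2] at h3
    simp at h3
  let wE : E := aeval (c 1) n / aeval (c 1) d
  have hwE : (wE : ℂ) = w := by
    have h1 := hw 1 one_pos (by omega)
    have h2 : (aeval (c 1) d : E) ≠ 0 := hd 1 one_pos (by omega)
    have h3 : ((aeval (c 1) d : E) : ℂ) ≠ 0 := fun h => h2 (Subtype.ext h)
    have h4 : (wE : ℂ) = ((aeval (c 1) n : E) : ℂ) / ((aeval (c 1) d : E) : ℂ) := rfl
    rw [h4, div_eq_iff h3, hval, hval]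
    exact h1
  have hrel : ∀ p, 0 < p → p * p ≤ 2 * m → aeval (c p) n = wE * aeval (c p) d := by
    intro p hp hp2
    apply Subtype.ext
    have h4 : ((wE * aeval (c p) d : E) : ℂ) = (wE : ℂ) * ((aeval (c p) d : E) : ℂ) := rfl
    rw [h4, hwE, hval, hval]
    exact hw p hp hp2
  have hfix : ∀ σ : E ≃ₐ[K] E, σ wE = wE := by
    intro σ
    have h1 : IsPrimitiveRoot (σ z) (2 * m) := hz.map_of_injective σ.injective
    obtain ⟨u, _, hu, hu2⟩ := (hz.isPrimitiveRoot_iff).1 h1
    obtain ⟨p, p', hp, hp', hpp, hpp', hmod⟩ := hTH (2 * m) u (by omega) hu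
    have h2 : σ (z ^ p) = z ^ (u * p) := by rw [map_pow, ← hu2, ← pow_mul]
    have h3 : σ (c p) = c p' := by
      simp only [c]
      rw [map_div₀, map_add, map_inv₀, h2, map_ofNat]
      rcases hmod with h | h
      · have : z ^ (u * p) = z ^ p' := pow_modEq' hz.pow_eq_one h
        rw [this]
      · have h5 : z ^ (u * p) * z ^ p' = 1 := by
          rw [← pow_add, hz.pow_eq_one_iff_dvd]
          exact (Nat.modEq_zero_iff_dvd).1 h
        have h6 : z ^ (u * p) = (z ^ p')⁻¹ := eq_inv_of_mul_eq_one_left h5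
        rw [h6, inv_inv, add_comm]
    have h4 : ∀ P : K[X], σ (aeval (c p) P) = aeval (c p') P := by
      intro P
      rw [← h3]
      exact (Polynomial.aeval_algHom_apply (σ : E →ₐ[K] E) (c p) P).symm
    have h5 := congrArg σ (hrel p hp hpp)
    rw [map_mul, h4, h4, hrel p' hp' hpp'] at h5
    exact (mul_right_cancel₀ (hd p' hp' hpp') h5).symm
  have hbot := (IsGalois.mem_bot_iff_fixed wE).2 hfix
  rw [IntermediateField.mem_bot] at hbot
  obtain ⟨k, hk⟩ := hbot
  rw [← hwE, ← hk]
  exact k.2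

end Vale.Agent.P097.D2
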