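import Vale.Agent.P097.H323.D2.Defs
import Vale.Agent.P097.H807.D2.F2
import Mathlib

/-! # P097 / Disc / D2 : [F1] finitely generated fields have large cyclotomic Galois groups -/

set_option linter.all false

open Polynomial IntermediateField

namespace Vale.Agent.P097.D2

section gen

variable {F : Type*} [Field F] [CharZero F] [Algebra F ℂ]

/-- the degrees of the algebraic elements are bounded -/
def Bdd (K : IntermediateField F ℂ) : Prop :=
  ∃ D : ℕ, ∀ α ∈ K, IsAlgebraic F α → (minpoly F α).natDegree ≤ D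

theorem exists_bound_field {K : IntermediateField F ℂ} (h : Bdd K) :
    ∃ β ∈ K, IsAlgebraic F β ∧ ∀ γ ∈ K, IsAlgebraic F γ → γ ∈ F⟮β⟯ := by
  obtain ⟨D, hD⟩ := h
  have hex : ∃ n, ∃ β ∈ K, IsAlgebraic F β ∧ (minpoly F β).natDegree = n :=
    ⟨_, 0, K.zero_mem, isAlgebraic_zero, rfl⟩
  have hbd : ∀ n, (∃ β ∈ K, IsAlgebraic F β ∧ (minpoly F β).natDegree = n) → n ≤ D := by
    rintro n ⟨β, hβ, ha, rfl⟩
    exact hD β hβ ha
  classical
  have hspec := Nat.findGreatest_spec (P := fun n => ∃ β ∈ K, IsAlgebraic F β ∧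
    (minpoly F β).natDegree = n) (hbd _ hex.choose_spec) hex.choose_spec
  obtain ⟨β, hβ, ha, hdeg⟩ := hspec
  refine ⟨β, hβ, ha, fun γ hγ hγa => ?_⟩
  have hbi : IsIntegral F β := ha.isIntegral
  have hgi : IsIntegral F γ := hγa.isIntegral
  let E : IntermediateField F ℂ := IntermediateField.adjoin F {β, γ}
  have hEfin : FiniteDimensional F E := by
    refine IntermediateField.finiteDimensional_adjoin fun x hx => ?_
    rcases hx with rfl | rfl
    · exact hbi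
    · exact hgi
  obtain ⟨δ, hδ⟩ := Field.exists_primitive_element F E
  have hδ' : F⟮(δ : ℂ)⟯ = E := by
    have h1 : (F⟮δ⟯).map E.val = E := by
      rw [hδ, ← AlgHom.fieldRange_eq_map, IntermediateField.fieldRange_val]
    rw [IntermediateField.adjoin_map, Set.image_singleton] at h1
    exact h1
  have hEK : E ≤ K := by
    rw [IntermediateField.adjoin_le_iff]
    rintro x (rfl | rfl)
    · exact hβ
    · exact hγ
  have hδK : (δ : ℂ) ∈ K := hEK δ.2
  have hδi : IsIntegral F (δ : ℂ) := (Algebra.IsIntegral.isIntegral (R := F) δ).map E.val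
  have hle : (minpoly F (δ : ℂ)).natDegree ≤ (minpoly F β).natDegree := by
    rw [hdeg]
    exact Nat.le_findGreatest (hD _ hδK hδi.isAlgebraic) ⟨_, hδK, hδi.isAlgebraic, rfl⟩
  have hsub : F⟮β⟯ ≤ F⟮(δ : ℂ)⟯ := by
    rw [hδ', IntermediateField.adjoin_simple_le_iff]
    exact IntermediateField.subset_adjoin _ _ (Or.inl rfl)
  have hfδ : FiniteDimensional F F⟮(δ : ℂ)⟯ := IntermediateField.adjoin.finiteDimensional hδi
  have heq : F⟮β⟯ = F⟮(δ : ℂ)⟯ := by
    refine IntermediateField.eq_of_le_of_finrank_le hsub ?_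
    rw [IntermediateField.adjoin.finrank hδi, IntermediateField.adjoin.finrank hbi]
    exact hle
  rw [heq, hδ']
  exact IntermediateField.subset_adjoin _ _ (Or.inr rfl)

/-- coefficients of minimal polynomials over `K` of algebraic numbers are algebraic -/
theorem coeff_alg {L : Type*} [Field L] [Algebra L ℂ] [Algebra F L] [IsScalarTower F L ℂ]
    {α : ℂ} (hα : IsAlgebraic F α) (i : ℕ) : IsAlgebraic F (algebraMap L ℂ ((minpoly L α).coeff i)) := by
  have hi : IsIntegral F α := hα.isIntegral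
  have h1 : minpoly L α ∣ (minpoly F α).map (algebraMap F L) := minpoly.dvd_map_of_isScalarTower F L α
  have h2 : IsIntegral F ((minpoly L α).coeff i) :=
    isIntegral_coeff_of_dvd (minpoly F α) (minpoly L α) (minpoly.monic hi)
      (minpoly.monic hi.tower_top) h1 i
  exact (h2.map (IsScalarTower.toAlgHom F L ℂ)).isAlgebraic

theorem bdd_step {K : IntermediateField F ℂ} (h : Bdd K) (t : ℂ) :
    Bdd ((IntermediateField.adjoin K {t}).restrictScalars F) := by
  by_cases ht : IsAlgebraic K t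
  · obtain ⟨β, hβ, hβa, hβ'⟩ := exists_bound_field h
    have hti : IsIntegral K t := ht.isIntegral
    have hfin : FiniteDimensional K K⟮t⟯ := IntermediateField.adjoin.finiteDimensional hti
    refine ⟨Module.finrank K K⟮t⟯ * (minpoly F β).natDegree, fun α hα hαa => ?_⟩
    have hαi : IsIntegral F α := hαa.isIntegral
    have hα' : α ∈ K⟮t⟯ := hα
    -- degree over K
    have hdK : (minpoly K α).natDegree ≤ Module.finrank K K⟮t⟯ := by
      rw [← IntermediateField.adjoin.finrank (hαi.tower_top (A := K))]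
      have hle : K⟮α⟯ ≤ K⟮t⟯ := IntermediateField.adjoin_simple_le_iff.2 hα'
      exact IntermediateField.finrank_le_of_le_right hle
    -- coefficients in F(β)
    have hcoef : ∀ i, algebraMap K ℂ ((minpoly K α).coeff i) ∈ F⟮β⟯ := fun i =>
      hβ' _ ((minpoly K α).coeff i).2 (coeff_alg hαa i)
    have hlift : (minpoly K α).map (algebraMap K ℂ) ∈ lifts (algebraMap F⟮β⟯ ℂ) := by
      rw [lifts_iff_coeff_lifts]
      intro i
      rw [coeff_map]
      exact ⟨⟨_, hcoef i⟩, rfl⟩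
    obtain ⟨q, hq1, hq2, hq3⟩ := lifts_and_natDegree_eq_and_monic hlift
      ((minpoly.monic (hαi.tower_top (A := K))).map _)
    have hq0 : aeval α q = 0 := by
      rw [aeval_def, ← eval_map, hq1, eval_map, ← aeval_def, minpoly.aeval]
    have hβi : IsIntegral F β := hβa.isIntegral
    have hfb : FiniteDimensional F F⟮β⟯ := IntermediateField.adjoin.finiteDimensional hβi
    have hd1 : (minpoly F⟮β⟯ α).natDegree ≤ Module.finrank K K⟮t⟯ := by
      refine le_trans (natDegree_le_of_dvd (minpoly.dvd _ _ hq0) hq3.ne_zero) ?_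
      rw [hq2, natDegree_map]
      exact hdK
    have hαβ : IsIntegral F⟮β⟯ α := hαi.tower_top
    have hfab : FiniteDimensional F⟮β⟯ (F⟮β⟯)⟮α⟯ := IntermediateField.adjoin.finiteDimensional hαβ
    have hfab' : FiniteDimensional F (F⟮β⟯)⟮α⟯ := FiniteDimensional.trans F F⟮β⟯ _
    have hle2 : F⟮α⟯ ≤ ((F⟮β⟯)⟮α⟯).restrictScalars F := by
      rw [IntermediateField.adjoin_simple_le_iff]
      exact IntermediateField.mem_adjoin_simple_self _ α
    rw [← IntermediateField.adjoin.finrank hαi]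
    have hfab'' : FiniteDimensional F ((F⟮β⟯)⟮α⟯.restrictScalars F) := hfab'
    calc Module.finrank F F⟮α⟯ ≤ Module.finrank F (((F⟮β⟯)⟮α⟯).restrictScalars F) :=
          IntermediateField.finrank_le_of_le_right hle2
      _ = Module.finrank F F⟮β⟯ * Module.finrank F⟮β⟯ (F⟮β⟯)⟮α⟯ :=
          (Module.finrank_mul_finrank F F⟮β⟯ (F⟮β⟯)⟮α⟯).symm
      _ ≤ Module.finrank K K⟮t⟯ * (minpoly F β).natDegree := by
          rw [mul_comm, IntermediateField.adjoin.finrank hαβ, IntermediateField.adjoin.finrank hβi]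
          exact Nat.mul_le_mul_right _ hd1
  · obtain ⟨D, hD⟩ := h
    refine ⟨D, fun α hα hαa => hD α ?_ hαa⟩
    have htt : Transcendental K t := ht
    let e := RatFunc.algEquivOfTranscendental t htt
    let a : K⟮t⟯ := ⟨α, hα⟩
    have ha : IsAlgebraic K a := by
      have h1 : IsAlgebraic K α := hαa.tower_top K
      exact (isAlgebraic_algebraMap_iff (algebraMap K⟮t⟯ ℂ).injective (a := a)).1 h1
    have h2 : IsAlgebraic K (e.symm a) :=
      (isAlgebraic_algHom_iff (e.symm : K⟮t⟯ →ₐ[K] RatFunc K) e.symm.injective).2 ha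
    by_contra hαK
    refine RatFunc.transcendental_of_ne_C (e.symm a) ?_ h2
    rintro ⟨c, hc⟩
    apply hαK
    have h3 : a = e (RatFunc.C c) := by rw [← hc, AlgEquiv.apply_symm_apply]
    have h4 : e (RatFunc.C c) = algebraMap K K⟮t⟯ c := e.commutes c
    have h5 : α = algebraMap K ℂ c := by
      have := congrArg (fun x : K⟮t⟯ => (x : ℂ)) (h3.trans h4)
      exact this
    rw [h5]
    exact c.2

theorem bdd_adjoin (T : Finset ℂ) : Bdd (IntermediateField.adjoin F (T : Set ℂ)) := by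
  classical
  induction T using Finset.induction_on with
  | empty =>
    refine ⟨1, fun α hα _ => ?_⟩
    rw [Finset.coe_empty, IntermediateField.adjoin_empty, IntermediateField.mem_bot] at hα
    obtain ⟨c, rfl⟩ := hα
    have h1 : minpoly F (algebraMap F ℂ c) = X - C c := minpoly.eq_X_sub_C ℂ c
    rw [h1, natDegree_X_sub_C]
  | insert t T _ ih =>
    have := bdd_step ih t
    rw [IntermediateField.adjoin_adjoin_left] at this
    rw [Finset.coe_insert, Set.insert_eq, Set.union_comm]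
    exact this

end gen

/-- the standard root of unity -/
noncomputable def zr (N : ℕ) : ℂ := Complex.exp (2 * Real.pi * Complex.I / (N : ℂ))

theorem zr_prim {N : ℕ} (hN : 0 < N) : IsPrimitiveRoot (zr N) N :=
  Complex.isPrimitiveRoot_exp N (by omega)

theorem mem_cyc {N : ℕ} (hN : 0 < N) {x : ℂ} (hx : x ^ N = 1) : x ∈ ℚ⟮zr N⟯ := by
  have : NeZero N := ⟨by omega⟩
  obtain ⟨k, _, hk⟩ := (zr_prim hN).eq_pow_of_pow_eq_one hx
  rw [← hk]
  exact pow_mem (IntermediateField.mem_adjoin_simple_self ℚ (zr N)) k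

theorem cyc_mono {N M : ℕ} (hN : 0 < N) (hM : 0 < M) (h : N ∣ M) : ℚ⟮zr N⟯ ≤ ℚ⟮zr M⟯ := by
  rw [IntermediateField.adjoin_simple_le_iff]
  refine mem_cyc hM ?_
  obtain ⟨k, rfl⟩ := h
  rw [pow_mul, (zr_prim hN).pow_eq_one, one_pow]

theorem exists_f (β : ℂ) (hβ : IsAlgebraic ℚ β) :
    ∃ f : ℕ, 0 < f ∧ ∀ N : ℕ, 0 < N → ∀ x : ℂ, x ∈ ℚ⟮β⟯ → x ∈ ℚ⟮zr N⟯ → x ∈ ℚ⟮zr f⟯ := by
  classical
  have hfb : FiniteDimensional ℚ ℚ⟮β⟯ := IntermediateField.adjoin.finiteDimensional hβ.isIntegral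
  have hfin : ∀ N : ℕ, FiniteDimensional ℚ (ℚ⟮β⟯ ⊓ ℚ⟮zr N⟯ : IntermediateField ℚ ℂ) := fun N =>
    FiniteDimensional.of_injective
      (IntermediateField.inclusion (inf_le_left : (ℚ⟮β⟯ ⊓ ℚ⟮zr N⟯ : IntermediateField ℚ ℂ) ≤ ℚ⟮β⟯)).toLinearMap
      (IntermediateField.inclusion (inf_le_left : (ℚ⟮β⟯ ⊓ ℚ⟮zr N⟯ : IntermediateField ℚ ℂ) ≤ ℚ⟮β⟯)).injective
  have hbd : ∀ N : ℕ, Module.finrank ℚ (ℚ⟮β⟯ ⊓ ℚ⟮zr N⟯ : IntermediateField ℚ ℂ) ≤
      Module.finrank ℚ ℚ⟮β⟯ := fun N => IntermediateField.finrank_le_of_le_right inf_le_left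
  have hspec := Nat.findGreatest_spec (P := fun n => ∃ f : ℕ, 0 < f ∧
    Module.finrank ℚ (ℚ⟮β⟯ ⊓ ℚ⟮zr f⟯ : IntermediateField ℚ ℂ) = n) (hbd 1) ⟨1, one_pos, rfl⟩
  obtain ⟨f, hf, hfr⟩ := hspec
  refine ⟨f, hf, fun N hN x hx1 hx2 => ?_⟩
  have hM : 0 < Nat.lcm N f := Nat.lcm_pos hN hf
  have h1 : (ℚ⟮β⟯ ⊓ ℚ⟮zr f⟯ : IntermediateField ℚ ℂ) ≤ ℚ⟮β⟯ ⊓ ℚ⟮zr (Nat.lcm N f)⟯ :=
    inf_le_inf_left _ (cyc_mono hf hM (Nat.dvd_lcm_right N f))
  have h2 : (ℚ⟮β⟯ ⊓ ℚ⟮zr N⟯ : IntermediateField ℚ ℂ) ≤ ℚ⟮β⟯ ⊓ ℚ⟮zr (Nat.lcm N f)⟯ :=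
    inf_le_inf_left _ (cyc_mono hN hM (Nat.dvd_lcm_left N f))
  have h3 : Module.finrank ℚ (ℚ⟮β⟯ ⊓ ℚ⟮zr (Nat.lcm N f)⟯ : IntermediateField ℚ ℂ) ≤
      Module.finrank ℚ (ℚ⟮β⟯ ⊓ ℚ⟮zr f⟯ : IntermediateField ℚ ℂ) := by
    rw [hfr]
    exact Nat.le_findGreatest (hbd _) ⟨_, hM, rfl⟩
  have := hfin (Nat.lcm N f)
  have h4 := IntermediateField.eq_of_le_of_finrank_le h1 h3
  have h5 : x ∈ (ℚ⟮β⟯ ⊓ ℚ⟮zr f⟯ : IntermediateField ℚ ℂ) := by
    rw [h4]
    exact h2 ⟨hx1, hx2⟩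
  exact h5.2

/-- coefficients of monic divisors of `X ^ N - 1` -/
theorem coeff_mem_cyc {N : ℕ} (hN : 0 < N) {q : ℂ[X]} (hq : q.Monic) (hdvd : q ∣ X ^ N - 1) (i : ℕ) :
    q.coeff i ∈ ℚ⟮zr N⟯ := by
  have hlift : q ∈ lifts (algebraMap ℚ⟮zr N⟯ ℂ) := by
    have h1 : q = (q.roots.map fun a => X - C a).prod :=
      (IsAlgClosed.splits q).eq_prod_roots_of_monic hq
    rw [h1]
    refine Subsemiring.multiset_prod_mem _ _ fun p hp => ?_
    obtain ⟨a, ha, rfl⟩ := Multiset.mem_map.1 hp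
    have ha1 : a ^ N = 1 := by
      have h2 : q.IsRoot a := isRoot_of_mem_roots ha
      have h3 : (X ^ N - 1 : ℂ[X]).IsRoot a := h2.dvd hdvd
      rw [IsRoot.def, eval_sub, eval_pow, eval_X, eval_one, sub_eq_zero] at h3
      exact h3
    rw [lifts_iff_coeff_lifts]
    intro n
    rw [coeff_sub, coeff_X, coeff_C]
    have h4 : a ∈ ℚ⟮zr N⟯ := mem_cyc hN ha1
    refine ⟨(if 1 = n then 1 else 0) - (if n = 0 then ⟨a, h4⟩ else 0), ?_⟩
    rw [map_sub]
    split_ifs <;> simp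
  rw [lifts_iff_coeff_lifts] at hlift
  obtain ⟨y, hy⟩ := hlift i
  rw [← hy]
  exact y.2

theorem f1 : F1 := by
  intro T
  obtain ⟨β, hβK, hβa, hβ⟩ := exists_bound_field (F := ℚ) (bdd_adjoin (F := ℚ) T)
  obtain ⟨f, hf, hf2⟩ := exists_f β hβa
  refine ⟨f, hf, fun N hN s hs u hu hmod P hP => ?_⟩
  let K : Subfield ℂ := Subfield.closure (T : Set ℂ)
  have hKK : ∀ x ∈ K, x ∈ IntermediateField.adjoin ℚ (T : Set ℂ) := by
    intro x hx
    have : K ≤ (IntermediateField.adjoin ℚ (T : Set ℂ)).toSubfield :=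
      Subfield.closure_le.2 (IntermediateField.subset_adjoin ℚ (T : Set ℂ))
    exact this hx
  have hsa : IsAlgebraic ℚ s := ((hs.isIntegral hN).tower_top (A := ℚ)).isAlgebraic
  have hsi : IsIntegral K s := (hs.isIntegral hN).tower_top
  -- coefficients of the minimal polynomial
  have hdvd : (minpoly K s).map (algebraMap K ℂ) ∣ X ^ N - 1 := by
    have h1 : minpoly K s ∣ X ^ N - 1 := by
      refine minpoly.dvd K s ?_
      rw [map_sub, map_pow, aeval_X, map_one, hs.pow_eq_one, sub_self]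
    have h2 := Polynomial.map_dvd (algebraMap K ℂ) h1
    rwa [Polynomial.map_sub, Polynomial.map_pow, map_X, Polynomial.map_one] at h2
  have hcoef : ∀ i, algebraMap K ℂ ((minpoly K s).coeff i) ∈ ℚ⟮zr f⟯ := by
    intro i
    refine hf2 N hN _ (hβ _ (hKK _ ((minpoly K s).coeff i).2) (coeff_alg hsa i)) ?_
    rw [← coeff_map]
    exact coeff_mem_cyc hN ((minpoly.monic hsi).map _) hdvd i
  have hzf : IsIntegral ℚ (zr f) := ((zr_prim hf).isIntegral hf).tower_top
  have hg : ∀ i, ∃ g : ℚ[X], aeval (zr f) g = algebraMap K ℂ ((minpoly K s).coeff i) := by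
    intro i
    have h1 := hcoef i
    rw [← IntermediateField.mem_toSubalgebra,
      IntermediateField.adjoin_simple_toSubalgebra_of_isAlgebraic hzf.isAlgebraic,
      Algebra.adjoin_singleton_eq_range_aeval] at h1
    obtain ⟨g, hg⟩ := h1
    exact ⟨g, hg⟩
  choose g hg using hg
  -- the common root of unity
  have hM : 0 < Nat.lcm N f := Nat.lcm_pos hN hf
  have hneM : NeZero (Nat.lcm N f) := ⟨hM.ne'⟩
  have hzM := zr_prim hM
  obtain ⟨a, _, ha⟩ := hzM.eq_pow_of_pow_eq_one (show s ^ Nat.lcm N f = 1 by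
    obtain ⟨k, hk⟩ := Nat.dvd_lcm_left N f
    rw [hk, pow_mul, hs.pow_eq_one, one_pow])
  obtain ⟨b, _, hb⟩ := hzM.eq_pow_of_pow_eq_one (show zr f ^ Nat.lcm N f = 1 by
    obtain ⟨k, hk⟩ := Nat.dvd_lcm_right N f
    rw [hk, pow_mul, (zr_prim hf).pow_eq_one, one_pow])
  obtain ⟨u', hu1, hu2⟩ := Nat.chineseRemainder' hmod
  have hcop : Nat.Coprime u' (Nat.lcm N f) := by
    have h1 : Nat.Coprime u' N := by
      rw [Nat.Coprime, hu1.gcd_eq]
      exact hu
    have h2 : Nat.Coprime u' f := by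
      rw [Nat.Coprime, hu2.gcd_eq]
      exact Nat.gcd_one_left f
    exact Nat.Coprime.coprime_dvd_right (Nat.lcm_dvd_mul N f) (Nat.Coprime.mul_right h1 h2)
  have hs' : s ^ u' = s ^ u := pow_modEq' hs.pow_eq_one hu1
  have hz' : zr f ^ u' = zr f := by
    rw [pow_modEq' (zr_prim hf).pow_eq_one hu2, pow_one]
  -- the polynomial
  let D := (minpoly K s).natDegree + 1
  let R : ℚ[X] := ∑ i ∈ Finset.range D, (g i).comp (X ^ b) * (X ^ a) ^ i
  have hR : ∀ y : ℂ, aeval y R = ∑ i ∈ Finset.range D, aeval (y ^ b) (g i) * (y ^ a) ^ i := by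
    intro y
    simp only [R, map_sum, map_mul, map_pow, aeval_X, aeval_comp]
  have hmp : ∀ y : ℂ, aeval y (minpoly K s) =
      ∑ i ∈ Finset.range D, algebraMap K ℂ ((minpoly K s).coeff i) * y ^ i := by
    intro y
    rw [aeval_eq_sum_range]
    refine Finset.sum_congr rfl fun i _ => ?_
    rw [Algebra.smul_def]
  have hR0 : aeval (zr (Nat.lcm N f)) R = 0 := by
    rw [hR, ha, hb]
    have h1 := minpoly.aeval K s
    rw [hmp] at h1
    rw [← h1]
    exact Finset.sum_congr rfl fun i _ => by rw [hg]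
  have hR1 : aeval (zr (Nat.lcm N f) ^ u') R = 0 := by
    have h1 : minpoly ℚ (zr (Nat.lcm N f)) ∣ R := minpoly.dvd ℚ _ hR0
    have h2 : minpoly ℚ (zr (Nat.lcm N f)) = minpoly ℚ (zr (Nat.lcm N f) ^ u') := by
      rw [← cyclotomic_eq_minpoly_rat hzM hM,
        ← cyclotomic_eq_minpoly_rat (hzM.pow_of_coprime u' hcop) hM]
    rw [h2] at h1
    obtain ⟨c, hc⟩ := h1
    rw [hc, map_mul, minpoly.aeval, zero_mul]
  have hfin : aeval (s ^ u) (minpoly K s) = 0 := by
    rw [hmp, ← hR1, hR]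
    refine Finset.sum_congr rfl fun i _ => ?_
    have e1 : (zr (Nat.lcm N f) ^ u') ^ b = zr f := by
      rw [← pow_mul, mul_comm, pow_mul, hb, hz']
    have e2 : (zr (Nat.lcm N f) ^ u') ^ a = s ^ u := by
      rw [← pow_mul, mul_comm, pow_mul, ha, hs']
    rw [e1, e2, hg]
  obtain ⟨c, hc⟩ := minpoly.dvd K s hP
  rw [hc, map_mul, hfin, zero_mul]

end Vale.Agent.P097.D2
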